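import Vale.Agent.Lib.Helper7.P302.Pk

/-!
A kernel-evaluable certificate checker: a set of bit masks (stored in a search tree)
closed under removing a canonical admissible triple through the top index cannot
contain the bit mask of a perfectly packable set.  The functions that the kernel has
to evaluate are written with recursors and with the basic arithmetic functions.
-/

namespace Vale.Agent.Lib.Helper7.P302

open Finset

/-- Search trees with natural keys. -/
inductive Tr : Type
  | leaf : Tr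
  | node : Tr → ℕ → Tr → Tr

/-- Search for a key. -/
noncomputable def Tr.mem (t : Tr) (m : ℕ) : Bool :=
  Tr.rec (motive := fun _ => Bool) false
    (fun _ k _ ihl ihr => bif Nat.blt m k then ihl else bif Nat.blt k m then ihr else true) t

theorem Tr.mem_leaf (m : ℕ) : Tr.leaf.mem m = false := rfl

theorem Tr.mem_node (l r : Tr) (k m : ℕ) : (Tr.node l k r).mem m =
    bif Nat.blt m k then l.mem m else bif Nat.blt k m then r.mem m else true := rfl

/-- A Boolean test holds at every key. -/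
noncomputable def Tr.all (f : ℕ → Bool) (t : Tr) : Bool :=
  Tr.rec (motive := fun _ => Bool) true (fun _ k _ ihl ihr => f k && (ihl && ihr)) t

theorem Tr.all_node (f : ℕ → Bool) (l r : Tr) (k : ℕ) :
    (Tr.node l k r).all f = (f k && (l.all f && r.all f)) := rfl

theorem Tr.all_node_intro (f : ℕ → Bool) (l r : Tr) (k : ℕ) (hk : f k = true)
    (hl : l.all f = true) (hr : r.all f = true) : (Tr.node l k r).all f = true := by
  rw [Tr.all_node, hk, hl, hr]; rfl

theorem Tr.all_of_mem (f : ℕ → Bool) :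
    ∀ t : Tr, t.all f = true → ∀ m, t.mem m = true → f m = true := by
  intro t
  induction t with
  | leaf => intro _ m hm; rw [Tr.mem_leaf] at hm; exact Bool.noConfusion hm
  | node l k r ihl ihr =>
    intro hall m hm
    rw [Tr.all_node] at hall
    simp only [Bool.and_eq_true] at hall
    obtain ⟨hk, hl, hr⟩ := hall
    rw [Tr.mem_node] at hm
    cases h1 : Nat.blt m k with
    | true =>
      rw [h1] at hm
      exact ihl hl m hm
    | false =>
      rw [h1] at hm
      cases h2 : Nat.blt k m with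
      | true =>
        rw [h2] at hm
        exact ihr hr m hm
      | false =>
        have h1' : ¬ m < k := by
          intro h; rw [← Nat.blt_eq] at h; rw [h] at h1; exact Bool.noConfusion h1
        have h2' : ¬ k < m := by
          intro h; rw [← Nat.blt_eq] at h; rw [h] at h2; exact Bool.noConfusion h2
        have : m = k := by omega
        rw [this]
        exact hk

/-- A Boolean test holds at every number below `n`. -/
noncomputable def allBelow (f : ℕ → Bool) (n : ℕ) : Bool :=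
  Nat.rec (motive := fun _ => Bool) true (fun i ih => f i && ih) n

theorem allBelow_succ (f : ℕ → Bool) (n : ℕ) :
    allBelow f (n + 1) = (f n && allBelow f n) := rfl

theorem allBelow_spec (f : ℕ → Bool) :
    ∀ n, allBelow f n = true → ∀ i < n, f i = true := by
  intro n
  induction n with
  | zero => intro _ i hi; omega
  | succ n ih =>
    intro h i hi
    rw [allBelow_succ, Bool.and_eq_true] at h
    rcases Nat.lt_succ_iff_lt_or_eq.mp hi with h1 | h1
    · exact ih h.2 i h1
    · rw [h1]; exact h.1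

/-- Bit test. -/
def tb (m i : ℕ) : Bool := Nat.beq (Nat.mod (Nat.shiftRight m i) 2) 1

theorem tb_eq (m i : ℕ) : tb m i = m.testBit i := by
  have h1 : tb m i = Nat.beq ((m >>> i) % 2) 1 := rfl
  rw [h1, Nat.testBit_eq_decide_div_mod_eq, Nat.shiftRight_eq_div_pow]
  by_cases h : m / 2 ^ i % 2 = 1
  · rw [h]; simp
  · have h0 : m / 2 ^ i % 2 = 0 := by omega
    rw [h0]
    have : Nat.beq 0 1 = false := rfl
    rw [this]; simp

/-- Position of the top bit by binary descent: `topBit k m r` handles `m < 2 ^ 2 ^ k`. -/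
def topBit : ℕ → ℕ → ℕ → ℕ
  | 0, _, r => r
  | k + 1, m, r =>
    bif Nat.ble (2 ^ 2 ^ k) m then topBit k (m >>> 2 ^ k) (r + 2 ^ k) else topBit k m r

theorem topBit_spec : ∀ k m r, 0 < m → m < 2 ^ 2 ^ k →
    ∃ t, topBit k m r = r + t ∧ 2 ^ t ≤ m ∧ m < 2 ^ (t + 1) := by
  intro k
  induction k with
  | zero =>
    intro m r h0 h1
    refine ⟨0, rfl, ?_, ?_⟩
    · simp only [pow_zero]; omega
    · simpa using h1
  | succ k ih =>
    intro m r h0 h1
    unfold topBit
    cases hb : Nat.ble (2 ^ 2 ^ k) m with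
    | true =>
      simp only [cond_true]
      have hle : 2 ^ 2 ^ k ≤ m := Nat.le_of_ble_eq_true hb
      have hpos : 0 < 2 ^ 2 ^ k := Nat.pos_of_ne_zero (by positivity)
      have hsq : (2 : ℕ) ^ 2 ^ (k + 1) = 2 ^ 2 ^ k * 2 ^ 2 ^ k := by
        rw [← pow_add]; congr 1; rw [pow_succ]; ring
      have hm' : m >>> 2 ^ k = m / 2 ^ 2 ^ k := Nat.shiftRight_eq_div_pow m (2 ^ k)
      have h0' : 0 < m >>> 2 ^ k := by
        rw [hm']; exact Nat.div_pos hle hpos
      have h1' : m >>> 2 ^ k < 2 ^ 2 ^ k := by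
        rw [hm', Nat.div_lt_iff_lt_mul hpos, ← hsq]; exact h1
      obtain ⟨t, ht, hlo, hhi⟩ := ih (m >>> 2 ^ k) (r + 2 ^ k) h0' h1'
      refine ⟨2 ^ k + t, by rw [ht]; ring, ?_, ?_⟩
      · rw [pow_add]
        calc 2 ^ 2 ^ k * 2 ^ t ≤ 2 ^ 2 ^ k * (m / 2 ^ 2 ^ k) := by
              rw [← hm']; exact Nat.mul_le_mul_left _ hlo
          _ ≤ m := Nat.mul_div_le m _
      · have h2 : m < 2 ^ 2 ^ k * (m / 2 ^ 2 ^ k + 1) := Nat.lt_mul_div_succ m hpos
        have h3 : m / 2 ^ 2 ^ k + 1 ≤ 2 ^ (t + 1) := by rw [← hm']; exact hhi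
        calc m < 2 ^ 2 ^ k * (m / 2 ^ 2 ^ k + 1) := h2
          _ ≤ 2 ^ 2 ^ k * 2 ^ (t + 1) := Nat.mul_le_mul_left _ h3
          _ = 2 ^ (2 ^ k + t + 1) := by rw [← pow_add]; congr 1
    | false =>
      simp only [cond_false]
      have hlt : m < 2 ^ 2 ^ k := by
        by_contra hge
        have := Nat.ble_eq_true_of_le (Nat.le_of_not_lt hge)
        rw [this] at hb
        exact Bool.noConfusion hb
      exact ih m r h0 hlt

/-- Straight-line version of `topBit 1`. -/
def lg1 (m r : ℕ) : ℕ := bif Nat.ble 2 m then Nat.add r 1 else r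

/-- Straight-line version of `topBit 2`. -/
def lg2 (m r : ℕ) : ℕ :=
  bif Nat.ble 4 m then lg1 (Nat.shiftRight m 2) (Nat.add r 2) else lg1 m r

/-- Straight-line version of `topBit 3`. -/
def lg4 (m r : ℕ) : ℕ :=
  bif Nat.ble 16 m then lg2 (Nat.shiftRight m 4) (Nat.add r 4) else lg2 m r

/-- Straight-line version of `topBit 4`. -/
def lg8 (m r : ℕ) : ℕ :=
  bif Nat.ble 256 m then lg4 (Nat.shiftRight m 8) (Nat.add r 8) else lg4 m r

/-- Straight-line version of `topBit 5`. -/
def lg16 (m r : ℕ) : ℕ :=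
  bif Nat.ble 65536 m then lg8 (Nat.shiftRight m 16) (Nat.add r 16) else lg8 m r

/-- Straight-line version of `topBit 6`. -/
def lg32 (m r : ℕ) : ℕ :=
  bif Nat.ble 4294967296 m then lg16 (Nat.shiftRight m 32) (Nat.add r 32) else lg16 m r

/-- Straight-line version of `topBit 7`. -/
def lg64 (m r : ℕ) : ℕ :=
  bif Nat.ble 18446744073709551616 m then lg32 (Nat.shiftRight m 64) (Nat.add r 64)
  else lg32 m r

theorem lg1_eq (m r : ℕ) : lg1 m r = topBit 1 m r := rfl

theorem lg2_eq (m r : ℕ) : lg2 m r = topBit 2 m r := by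
  unfold lg2; rw [lg1_eq, lg1_eq]; rfl

theorem lg4_eq (m r : ℕ) : lg4 m r = topBit 3 m r := by
  unfold lg4; rw [lg2_eq, lg2_eq]; rfl

theorem lg8_eq (m r : ℕ) : lg8 m r = topBit 4 m r := by
  unfold lg8; rw [lg4_eq, lg4_eq]; rfl

theorem lg16_eq (m r : ℕ) : lg16 m r = topBit 5 m r := by
  unfold lg16; rw [lg8_eq, lg8_eq]; rfl

theorem lg32_eq (m r : ℕ) : lg32 m r = topBit 6 m r := by
  unfold lg32; rw [lg16_eq, lg16_eq]; rfl

theorem lg64_eq (m r : ℕ) : lg64 m r = topBit 7 m r := by
  unfold lg64; rw [lg32_eq, lg32_eq]; rfl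

/-- Top bit of a positive number below `2 ^ 128`. -/
def lg (m : ℕ) : ℕ := lg64 m 0

theorem lg_eq {m : ℕ} (h0 : m ≠ 0) (h1 : m < 2 ^ 128) : lg m = Nat.log2 m := by
  obtain ⟨t, ht, hlo, hhi⟩ := topBit_spec 7 m 0 (Nat.pos_of_ne_zero h0) (by simpa using h1)
  unfold lg
  rw [lg64_eq, ht, Nat.zero_add]
  exact ((Nat.log2_eq_iff h0).mpr ⟨hlo, hhi⟩).symm

/-- Inner check: `m1` is the mask without the top index and without `p`, and `c` counts
the admissible third indices.  If an admissible third index above `p` is present, the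
mask without the largest one must be a key. -/
def stepC (mem : ℕ → Bool) (p m1 c : ℕ) : Bool :=
  bif Nat.ble (Nat.pow 2 (Nat.add p 1)) (Nat.mod m1 (Nat.pow 2 c)) then
    mem (Nat.xor m1 (Nat.pow 2 (lg (Nat.mod m1 (Nat.pow 2 c)))))
  else true

theorem stepC_eq (mem : ℕ → Bool) (p m1 c : ℕ) : stepC mem p m1 c =
    bif Nat.ble (2 ^ (p + 1)) (m1 % 2 ^ c) then mem (m1 ^^^ 2 ^ lg (m1 % 2 ^ c))
    else true := rfl

/-- The check for the mask `m`, top index `x` and second index `p`. -/
def stepP (mem : ℕ → Bool) (tab : ℕ → ℕ → ℕ) (m x p : ℕ) : Bool :=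
  bif tb m p then stepC mem p (Nat.xor (Nat.xor m (Nat.pow 2 x)) (Nat.pow 2 p)) (tab x p)
  else true

theorem stepP_eq (mem : ℕ → Bool) (tab : ℕ → ℕ → ℕ) (m x p : ℕ) : stepP mem tab m x p =
    bif tb m p then stepC mem p ((m ^^^ 2 ^ x) ^^^ 2 ^ p) (tab x p) else true := rfl

/-- The check for the mask `m`: it is positive, below `2 ^ 128`, its top index is below
`N`, and every second index below the bound `pb` passes. -/
noncomputable def stepOK (mem : ℕ → Bool) (tab : ℕ → ℕ → ℕ) (pb : ℕ → ℕ) (N m : ℕ) : Bool :=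
  (!(Nat.beq m 0)) && (Nat.blt m 340282366920938463463374607431768211456 &&
    (Nat.blt (lg m) N && allBelow (stepP mem tab m (lg m)) (pb (lg m))))

/-- The set of indices below `N` whose bit is set in `m`. -/
def bs (N m : ℕ) : Finset ℕ := (range N).filter (fun i => m.testBit i = true)

theorem mem_bs {N m i : ℕ} : i ∈ bs N m ↔ i < N ∧ m.testBit i = true := by
  simp [bs]

theorem bs_xor {N m x : ℕ} (h : m.testBit x = true) :
    bs N (m ^^^ 2 ^ x) = (bs N m).erase x := by
  ext i
  rw [mem_erase, mem_bs, mem_bs, Nat.testBit_xor, Nat.testBit_two_pow]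
  by_cases hix : i = x
  · subst hix
    simp [h]
  · have : ¬ x = i := fun h' => hix h'.symm
    simp [hix, this]

theorem bs_full (N : ℕ) : bs N (2 ^ N - 1) = range N := by
  ext i
  rw [mem_bs, Nat.testBit_two_pow_sub_one]
  simp

theorem le_log2_of_testBit {m i : ℕ} (h : m.testBit i = true) : i ≤ Nat.log2 m := by
  by_contra hlt
  have h1 : m < 2 ^ (Nat.log2 m + 1) := Nat.lt_log2_self
  have h2 : 2 ^ (Nat.log2 m + 1) ≤ 2 ^ i := Nat.pow_le_pow_right (by omega) (by omega)
  have := Nat.testBit_lt_two_pow (lt_of_lt_of_le h1 h2)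
  rw [this] at h
  exact Bool.noConfusion h

/-- Soundness of the checker. -/
theorem dead_of_check (wt : ℕ → ℕ) (C N : ℕ) (tab : ℕ → ℕ → ℕ) (pb : ℕ → ℕ) (t : Tr)
    (hmono : ∀ i j, i ≤ j → j < N → wt i ≤ wt j)
    (htab : ∀ x p i, x < N → p < N → i < N → (i < tab x p ↔ wt x + wt p + wt i ≤ C))
    (hpb : ∀ x p q, x < N → p < q → q < N → wt x + wt p + wt q ≤ C → p < pb x)
    (hchk : t.all (stepOK t.mem tab pb N) = true) :
    ∀ k m, (bs N m).card = k → t.mem m = true → ¬ Pk wt C (bs N m) := by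
  intro k
  induction k using Nat.strong_induction_on with
  | _ k ih =>
    intro m hk hm hP
    have hstep := Tr.all_of_mem _ t hchk m hm
    simp only [stepOK, Bool.and_eq_true] at hstep
    obtain ⟨h0, hm128, hxN, hall⟩ := hstep
    have hm0 : m ≠ 0 := by
      rintro rfl
      simp at h0
    rw [Nat.blt_eq] at hm128
    have hm128' : m < 2 ^ 128 := by
      have : (2 : ℕ) ^ 128 = 340282366920938463463374607431768211456 := by norm_num
      rw [this]; exact hm128
    rw [lg_eq hm0 hm128'] at hxN hall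
    rw [Nat.blt_eq] at hxN
    have hxbit : m.testBit (Nat.log2 m) = true := Nat.testBit_log2 hm0
    have hxS : Nat.log2 m ∈ bs N m := mem_bs.mpr ⟨hxN, hxbit⟩
    have hmonoS : ∀ i ∈ bs N m, ∀ j ∈ bs N m, i ≤ j → wt i ≤ wt j := by
      intro i _ j hj hij
      exact hmono i j hij (mem_bs.mp hj).1
    obtain ⟨p, q, hpS, hqS, hpq, hpx, hqx, hw, hex⟩ := hP.exchange hmonoS _ hxS
    have hpbit := (mem_bs.mp hpS).2
    have hqbit := (mem_bs.mp hqS).2
    have hpN := (mem_bs.mp hpS).1
    have hqN := (mem_bs.mp hqS).1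
    have hplt : p < pb (Nat.log2 m) := hpb _ p q hxN hpq hqN hw
    have hsp := allBelow_spec _ _ hall p hplt
    rw [stepP_eq, tb_eq, hpbit] at hsp
    simp only [cond_true] at hsp
    have hx128 : Nat.log2 m < 128 := (Nat.log2_lt hm0).mpr hm128'
    have hple : p ≤ Nat.log2 m := le_log2_of_testBit hpbit
    have hm1lt : (m ^^^ 2 ^ Nat.log2 m) ^^^ 2 ^ p < 2 ^ 128 := by
      apply Nat.xor_lt_two_pow
      · apply Nat.xor_lt_two_pow hm128'
        exact Nat.pow_lt_pow_right (by omega) hx128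
      · exact Nat.pow_lt_pow_right (by omega) (by omega)
    -- the two intermediate masks
    have hb1 : bs N (m ^^^ 2 ^ Nat.log2 m) = (bs N m).erase (Nat.log2 m) := bs_xor hxbit
    have hpbit1 : (m ^^^ 2 ^ Nat.log2 m).testBit p = true := by
      have : p ∈ bs N (m ^^^ 2 ^ Nat.log2 m) := by
        rw [hb1]; exact mem_erase.mpr ⟨hpx, hpS⟩
      exact (mem_bs.mp this).2
    have hb2 : bs N ((m ^^^ 2 ^ Nat.log2 m) ^^^ 2 ^ p) =
        ((bs N m).erase (Nat.log2 m)).erase p := by
      rw [bs_xor hpbit1, hb1]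
    generalize hm1 : (m ^^^ 2 ^ Nat.log2 m) ^^^ 2 ^ p = m1 at hsp hb2 hm1lt
    have hqS1 : q ∈ bs N m1 := by
      rw [hb2]
      exact mem_erase.mpr ⟨by omega, mem_erase.mpr ⟨hqx, hqS⟩⟩
    have hqtab : q < tab (Nat.log2 m) p := (htab _ _ _ hxN hpN hqN).mpr hw
    have hcq : (m1 % 2 ^ tab (Nat.log2 m) p).testBit q = true := by
      rw [Nat.testBit_mod_two_pow]
      simp [hqtab, (mem_bs.mp hqS1).2]
    have hcandlt : m1 % 2 ^ tab (Nat.log2 m) p < 2 ^ 128 :=
      lt_of_le_of_lt (Nat.mod_le _ _) hm1lt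
    rw [stepC_eq] at hsp
    generalize hcand : m1 % 2 ^ tab (Nat.log2 m) p = cand at hsp hcq hcandlt
    have hcge : 2 ^ (p + 1) ≤ cand :=
      le_trans (Nat.pow_le_pow_right (by omega) (by omega)) (Nat.ge_two_pow_of_testBit hcq)
    have hc0 : cand ≠ 0 := by
      have : 0 < 2 ^ (p + 1) := Nat.pos_of_ne_zero (by positivity)
      omega
    rw [Nat.ble_eq_true_of_le hcge, lg_eq hc0 hcandlt] at hsp
    simp only [cond_true] at hsp
    have hzbit : cand.testBit (Nat.log2 cand) = true := Nat.testBit_log2 hc0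
    have hqz : q ≤ Nat.log2 cand := le_log2_of_testBit hcq
    -- properties of the third index
    have hz2 : Nat.log2 cand < tab (Nat.log2 m) p ∧ m1.testBit (Nat.log2 cand) = true := by
      have h1 : (m1 % 2 ^ tab (Nat.log2 m) p).testBit (Nat.log2 cand) = true := by
        rw [hcand]; exact hzbit
      rw [Nat.testBit_mod_two_pow] at h1
      simpa using h1
    have hzle : Nat.log2 cand ≤ Nat.log2 m := by
      by_contra hgt
      have h1 : m1.testBit (Nat.log2 cand) = true := hz2.2
      rw [← hm1, Nat.testBit_xor, Nat.testBit_xor, Nat.testBit_two_pow,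
        Nat.testBit_two_pow] at h1
      have h2 : m.testBit (Nat.log2 cand) = false := by
        cases hb : m.testBit (Nat.log2 cand) with
        | false => rfl
        | true => exact absurd (le_log2_of_testBit hb) hgt
      have h3 : ¬ Nat.log2 m = Nat.log2 cand := by omega
      have h4 : ¬ p = Nat.log2 cand := by omega
      simp [h2, h3, h4] at h1
    have hzN : Nat.log2 cand < N := by omega
    have hzS1 : Nat.log2 cand ∈ bs N m1 := mem_bs.mpr ⟨hzN, hz2.2⟩
    have hzS1' := hzS1
    rw [hb2] at hzS1'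
    have hzp : Nat.log2 cand ≠ p := (mem_erase.mp hzS1').1
    have hzx : Nat.log2 cand ≠ Nat.log2 m := (mem_erase.mp (mem_erase.mp hzS1').2).1
    have hzS : Nat.log2 cand ∈ bs N m := (mem_erase.mp (mem_erase.mp hzS1').2).2
    have hwz : wt (Nat.log2 m) + wt p + wt (Nat.log2 cand) ≤ C :=
      (htab _ _ _ hxN hpN hzN).mp hz2.1
    have hPk := hex _ hzS hzx hzp hqz hwz
    have hb3 : bs N (m1 ^^^ 2 ^ Nat.log2 cand) =
        (((bs N m).erase (Nat.log2 m)).erase p).erase (Nat.log2 cand) := by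
      rw [bs_xor hz2.2, hb2]
    rw [← hb3] at hPk
    have hcard : (bs N (m1 ^^^ 2 ^ Nat.log2 cand)).card < k := by
      rw [hb3, ← hk]
      calc ((((bs N m).erase (Nat.log2 m)).erase p).erase (Nat.log2 cand)).card
          ≤ (((bs N m).erase (Nat.log2 m)).erase p).card := card_erase_le
        _ ≤ ((bs N m).erase (Nat.log2 m)).card := card_erase_le
        _ < (bs N m).card := card_erase_lt_of_mem hxS
    exact ih _ hcard _ rfl hsp hPk

/-- If the full mask is a key of a tree passing the check, the first `N` indices cannot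
be perfectly packed. -/
theorem not_pk_range (wt : ℕ → ℕ) (C N : ℕ) (tab : ℕ → ℕ → ℕ) (pb : ℕ → ℕ) (t : Tr)
    (hmono : ∀ i j, i ≤ j → j < N → wt i ≤ wt j)
    (htab : ∀ x p i, x < N → p < N → i < N → (i < tab x p ↔ wt x + wt p + wt i ≤ C))
    (hpb : ∀ x p q, x < N → p < q → q < N → wt x + wt p + wt q ≤ C → p < pb x)
    (hchk : t.all (stepOK t.mem tab pb N) = true)
    (hfull : t.mem (2 ^ N - 1) = true) : ¬ Pk wt C (range N) := by
  have := dead_of_check wt C N tab pb t hmono htab hpb hchk _ (2 ^ N - 1) rfl hfull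
  rwa [bs_full] at this

end Vale.Agent.Lib.Helper7.P302
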