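import Vale.Agent.Lib.Helper9.P302.InfMain7

/-!
The last step towards a gap of four thirds.

If pairs in bins gadgets with `2 t + 4` items, at least `t + 4` bins, at most `t` pairs in bins
at the same time and a fractional family of pairs of total weight `t + g` exist with `g`
arbitrarily close to `2`, then the difference between the optimum and the value of the
configuration linear program comes arbitrarily close to `4 / 3` on instances with all sizes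
larger than `1 / 4` and at most `1 / 2`.
-/

namespace Vale.Agent.Lib.Helper7.P302End

open Vale.Agent.Lib.Helper3.BinPacking
open Vale.Agent.Lib.Helper2.Inf
open Vale.Agent.Lib.Helper9.P302Inf

/-- Gadgets with fractional surplus `g ≥ 2 - δ` for every `δ > 0` give gaps arbitrarily close
to `4 / 3`. -/
theorem four_thirds_of_gadgets
    (h : ∀ δ : ℝ, 0 < δ → ∃ (G : Gadget) (t jk : ℕ) (H : ℤ) (g r : ℝ),
      G.N = 2 * t + 4 ∧ t + 4 ≤ G.m ∧ (∀ b, b < G.m → (G.c b : ℤ) ≤ H) ∧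
      (∀ i, i < G.N → (G.w i : ℤ) ≤ H) ∧ G.IntBound t ∧ G.FracPairs (t + g) r jk ∧ 0 ≤ r ∧
      0 ≤ g ∧ g ≤ 2 ∧ 2 - δ ≤ g) :
    ∀ ε : ℝ, 0 < ε → ∃ (n : ℕ) (a : Fin n → ℚ),
      (∀ i, 1 / 4 < a i ∧ a i ≤ 1 / 2) ∧ 4 / 3 - ε ≤ (opt a : ℝ) - lp a := by
  intro ε hε
  obtain ⟨G, t, jk, H, g, r, hN, hm, hc, hw, hInt, hFP, hr, hg0, hg2, hg⟩ :=
    h (3 * ε) (by linarith)
  obtain ⟨n, a, ha, hgap⟩ :=
    gap_limit7 G t jk H g r hN hm hc hw hInt hFP hr hg0 hg2 (ε / 2) (by linarith)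
  exact ⟨n, a, ha, by linarith⟩

/-- A sequence of gadgets with `2 - g ≤ C (2 / 3) ^ j` at the index `j` contains gadgets with
`g ≥ 2 - δ` for every `δ > 0`. -/
theorem gadgets_of_seq (C : ℝ)
    (h : ∀ j : ℕ, ∃ (G : Gadget) (t jk : ℕ) (H : ℤ) (g r : ℝ),
      G.N = 2 * t + 4 ∧ t + 4 ≤ G.m ∧ (∀ b, b < G.m → (G.c b : ℤ) ≤ H) ∧
      (∀ i, i < G.N → (G.w i : ℤ) ≤ H) ∧ G.IntBound t ∧ G.FracPairs (t + g) r jk ∧ 0 ≤ r ∧
      0 ≤ g ∧ g ≤ 2 ∧ 2 - g ≤ C * (2 / 3) ^ j) :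
    ∀ δ : ℝ, 0 < δ → ∃ (G : Gadget) (t jk : ℕ) (H : ℤ) (g r : ℝ),
      G.N = 2 * t + 4 ∧ t + 4 ≤ G.m ∧ (∀ b, b < G.m → (G.c b : ℤ) ≤ H) ∧
      (∀ i, i < G.N → (G.w i : ℤ) ≤ H) ∧ G.IntBound t ∧ G.FracPairs (t + g) r jk ∧ 0 ≤ r ∧
      0 ≤ g ∧ g ≤ 2 ∧ 2 - δ ≤ g := by
  intro δ hδ
  have hC : 0 < |C| + 1 := by positivity
  obtain ⟨j, hj⟩ := exists_pow_lt_of_lt_one (div_pos hδ hC) (by norm_num : (2 / 3 : ℝ) < 1)
  obtain ⟨G, t, jk, H, g, r, hN, hm, hc, hw, hInt, hFP, hr, hg0, hg2, hg⟩ := h j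
  refine ⟨G, t, jk, H, g, r, hN, hm, hc, hw, hInt, hFP, hr, hg0, hg2, ?_⟩
  have hp : (0 : ℝ) ≤ (2 / 3) ^ j := by positivity
  have h1 : C * (2 / 3) ^ j ≤ (|C| + 1) * (2 / 3) ^ j :=
    mul_le_mul_of_nonneg_right (by linarith [le_abs_self C]) hp
  have h2 : (|C| + 1) * (2 / 3) ^ j < δ := by
    rw [lt_div_iff₀ hC] at hj
    linarith
  linarith

/-- The same for a sequence of gadgets with `2 - g ≤ C (2 / 3) ^ j` at the index `j`. -/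
theorem four_thirds_of_seq (C : ℝ)
    (h : ∀ j : ℕ, ∃ (G : Gadget) (t jk : ℕ) (H : ℤ) (g r : ℝ),
      G.N = 2 * t + 4 ∧ t + 4 ≤ G.m ∧ (∀ b, b < G.m → (G.c b : ℤ) ≤ H) ∧
      (∀ i, i < G.N → (G.w i : ℤ) ≤ H) ∧ G.IntBound t ∧ G.FracPairs (t + g) r jk ∧ 0 ≤ r ∧
      0 ≤ g ∧ g ≤ 2 ∧ 2 - g ≤ C * (2 / 3) ^ j) :
    ∀ ε : ℝ, 0 < ε → ∃ (n : ℕ) (a : Fin n → ℚ),
      (∀ i, 1 / 4 < a i ∧ a i ≤ 1 / 2) ∧ 4 / 3 - ε ≤ (opt a : ℝ) - lp a :=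
  four_thirds_of_gadgets (gadgets_of_seq C h)

end Vale.Agent.Lib.Helper7.P302End
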