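import Vale.Agent.Lib.Helper9.P302.InfWitness7
import Vale.Agent.Lib.Helper7.P302.FourThirdsEnd

/-!
The last step towards a gap of four thirds, with explicit witnesses.

If pairs in bins gadgets with `2 t + 4` items, at least `t + 4` bins, at most `t` pairs in bins
at the same time and a fractional family of pairs of total weight `t + g` exist with `g`
arbitrarily close to `2`, then for every `ε > 0` there are an instance with all sizes larger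
than `1 / 4` and at most `1 / 2` and a number `K` such that the items cannot be packed into `K`
or fewer bins while the configuration linear program has a feasible solution of value at most
`K + 1 - (4 / 3 - ε)`.
-/

namespace Vale.Agent.Lib.Helper7.P302End

open Vale.Agent.Lib.Helper3.BinPacking
open Vale.Agent.Lib.Helper2.Inf
open Vale.Agent.Lib.Helper9.P302Inf

/-- Gadgets with fractional surplus `g ≥ 2 - δ` for every `δ > 0` give witnesses for gaps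
arbitrarily close to `4 / 3`. -/
theorem four_thirds_witness_of_gadgets
    (h : ∀ δ : ℝ, 0 < δ → ∃ (G : Gadget) (t jk : ℕ) (H : ℤ) (g r : ℝ),
      G.N = 2 * t + 4 ∧ t + 4 ≤ G.m ∧ (∀ b, b < G.m → (G.c b : ℤ) ≤ H) ∧
      (∀ i, i < G.N → (G.w i : ℤ) ≤ H) ∧ G.IntBound t ∧ G.FracPairs (t + g) r jk ∧ 0 ≤ r ∧
      0 ≤ g ∧ g ≤ 2 ∧ 2 - δ ≤ g) :
    ∀ ε : ℝ, 0 < ε → ∃ (n K : ℕ) (a : Fin n → ℚ),
      (∀ i, 1 / 4 < a i ∧ a i ≤ 1 / 2) ∧
      (∀ k, k ≤ K → ¬ ∃ f : Fin n → Fin k, IsPacking a k f) ∧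
      ∃ (m : ℕ) (cfg : Fin m → ℚ → ℕ) (w : Fin m → ℝ), IsFracCover a m cfg w ∧
        ∑ j, w j ≤ (K : ℝ) + 1 - (4 / 3 - ε) := by
  intro ε hε
  obtain ⟨G, t, jk, H, g, r, hN, hm, hc, hw, hInt, hFP, hr, hg0, hg2, hg⟩ :=
    h (3 * ε) (by linarith)
  obtain ⟨n, K, a, ha, hpack, m, cfg, w, hcov, hsum⟩ :=
    witness_limit7 G t jk H g r hN hm hc hw hInt hFP hr hg0 hg2 (ε / 2) (by linarith)
  exact ⟨n, K, a, ha, hpack, m, cfg, w, hcov, by linarith⟩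

/-- The same for a sequence of gadgets with `2 - g ≤ C (2 / 3) ^ j` at the index `j`. -/
theorem four_thirds_witness_of_seq (C : ℝ)
    (h : ∀ j : ℕ, ∃ (G : Gadget) (t jk : ℕ) (H : ℤ) (g r : ℝ),
      G.N = 2 * t + 4 ∧ t + 4 ≤ G.m ∧ (∀ b, b < G.m → (G.c b : ℤ) ≤ H) ∧
      (∀ i, i < G.N → (G.w i : ℤ) ≤ H) ∧ G.IntBound t ∧ G.FracPairs (t + g) r jk ∧ 0 ≤ r ∧
      0 ≤ g ∧ g ≤ 2 ∧ 2 - g ≤ C * (2 / 3) ^ j) :
    ∀ ε : ℝ, 0 < ε → ∃ (n K : ℕ) (a : Fin n → ℚ),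
      (∀ i, 1 / 4 < a i ∧ a i ≤ 1 / 2) ∧
      (∀ k, k ≤ K → ¬ ∃ f : Fin n → Fin k, IsPacking a k f) ∧
      ∃ (m : ℕ) (cfg : Fin m → ℚ → ℕ) (w : Fin m → ℝ), IsFracCover a m cfg w ∧
        ∑ j, w j ≤ (K : ℝ) + 1 - (4 / 3 - ε) :=
  four_thirds_witness_of_gadgets (gadgets_of_seq C h)

end Vale.Agent.Lib.Helper7.P302End
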