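import Vale.Agent.Lib.Helper4.P302.Join
import Vale.Agent.Lib.Helper9.P302.PiBGen

/-!
The integral bound of a join of two pairs in bins gadgets.

If at most `tb` bins of `Gb` and at most `tc` bins of `Gc` can receive pairs at the same time,
and `Gb` together with the `eb` further items has few enough items, then at most
`tb + Gc.m + 1` bins of the join can receive pairs at the same time.
-/

namespace Vale.Agent.Lib.Helper7.P302Join

open Finset
open Vale.Agent.Lib.Helper2.Inf
open Vale.Agent.Lib.Helper2.PiB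
open Vale.Agent.Lib.Helper4.P302
open Vale.Agent.Lib.Helper9.PiBGen

/-- The heavy items of the join weigh at least `6 (H + 1)`. -/
theorem join_w_heavy_ge (Gb Gc : Gadget) (H eb ec l : ℕ) (h1 : Gb.N + eb ≤ l)
    (h2 : l < Gb.N + eb + Gc.N + ec) : 6 * (H + 1) ≤ (join Gb Gc H eb ec).w l := by
  by_cases hl : l < Gb.N + eb + Gc.N
  · have h := join_w_c Gb Gc H eb ec (l - (Gb.N + eb)) (by omega)
    have e : Gb.N + eb + (l - (Gb.N + eb)) = l := by omega
    rw [e] at h
    omega
  · have h := join_w_ec Gb Gc H eb ec l (by omega) h2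
    omega

/-- The old items of the join weigh at least `2 (H + 1)`. -/
theorem join_w_old_ge (Gb Gc : Gadget) (H eb ec i : ℕ) (h : i < Gb.N + eb) :
    2 * (H + 1) ≤ (join Gb Gc H eb ec).w i := by
  by_cases hi : i < Gb.N
  · have h' := join_w_b Gb Gc H eb ec i hi
    omega
  · have h' := join_w_eb Gb Gc H eb ec i (by omega) h
    omega

/-- The weight of a heavy item of the join coming from `Gc`. -/
theorem join_w_c' (Gb Gc : Gadget) (H eb ec l : ℕ) (h1 : Gb.N + eb ≤ l)
    (h2 : l < Gb.N + eb + Gc.N) :
    (join Gb Gc H eb ec).w l = 6 * (H + 1) + Gc.w (l - (Gb.N + eb)) := by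
  have h := join_w_c Gb Gc H eb ec (l - (Gb.N + eb)) (by omega)
  have e : Gb.N + eb + (l - (Gb.N + eb)) = l := by omega
  rw [e] at h
  exact h

/-- The capacity of a big bin of the join coming from `Gc`. -/
theorem join_c_c' (Gb Gc : Gadget) (H eb ec b : ℕ) (h1 : Gb.m ≤ b) (h2 : b < Gb.m + Gc.m) :
    (join Gb Gc H eb ec).c b = 12 * (H + 1) + Gc.c (b - Gb.m) := by
  have h := join_c_c Gb Gc H eb ec (b - Gb.m) (by omega)
  have e : Gb.m + (b - Gb.m) = b := by omega
  rw [e] at h
  exact h

/-- A placement into bins `q ≤ b < q + m` of items `p ≤ i < p + N` gives, after shifting the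
indices, a placement into the bins below `m` of the items below `N`. -/
theorem placed_shift (w c w' c' : ℕ → ℕ) (I B : Finset ℕ) (N m p q : ℕ) (S : Finset ℕ)
    (f g : ℕ → ℕ) (hP : Placed w c I B S f g)
    (hB : ∀ b ∈ S, q ≤ b ∧ b < q + m)
    (hf : ∀ b ∈ S, p ≤ f b ∧ f b < p + N)
    (hg : ∀ b ∈ S, p ≤ g b ∧ g b < p + N)
    (hfit : ∀ b ∈ S, w' (f b - p) + w' (g b - p) ≤ c' (b - q)) :
    Placed w' c' (range N) (range m) (S.image (fun b => b - q))
      (fun b' => f (b' + q) - p) (fun b' => g (b' + q) - p) := by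
  have key : ∀ b' ∈ S.image (fun b => b - q), b' + q ∈ S ∧ b' < m := by
    intro b' hb'
    rw [mem_image] at hb'
    obtain ⟨b, hb, rfl⟩ := hb'
    have h := hB b hb
    have e : b - q + q = b := by omega
    rw [e]
    exact ⟨hb, by omega⟩
  refine ⟨?_, ?_, ?_, ?_, ?_, ?_⟩
  · intro b' hb'
    rw [mem_range]
    exact (key b' hb').2
  · intro b' hb'
    have h := hf _ (key b' hb').1
    rw [mem_range]
    show f (b' + q) - p < N
    omega
  · intro b' hb'
    have h := hg _ (key b' hb').1
    rw [mem_range]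
    show g (b' + q) - p < N
    omega
  · intro b' hb'
    have h1 := hf _ (key b' hb').1
    have h2 := hg _ (key b' hb').1
    have h3 := hP.ne _ (key b' hb').1
    show f (b' + q) - p ≠ g (b' + q) - p
    omega
  · intro b' hb'
    have h := hfit _ (key b' hb').1
    have e : b' + q - q = b' := by omega
    rw [e] at h
    exact h
  · intro b1 hb1 b2 hb2 hne
    have k1 := (key b1 hb1).1
    have k2 := (key b2 hb2).1
    have hne' : b1 + q ≠ b2 + q := by omega
    have d := hP.disj _ k1 _ k2 hne'
    have f1 := hf _ k1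
    have f2 := hf _ k2
    have g1 := hg _ k1
    have g2 := hg _ k2
    show f (b1 + q) - p ≠ f (b2 + q) - p ∧ f (b1 + q) - p ≠ g (b2 + q) - p ∧
      g (b1 + q) - p ≠ f (b2 + q) - p ∧ g (b1 + q) - p ≠ g (b2 + q) - p
    obtain ⟨d1, d2, d3, d4⟩ := d
    refine ⟨?_, ?_, ?_, ?_⟩ <;> omega

/-- Shifting the bins down by `q` does not change the number of bins. -/
theorem card_image_shift (S : Finset ℕ) (q : ℕ) (hB : ∀ b ∈ S, q ≤ b) :
    (S.image (fun b => b - q)).card = S.card := by
  apply card_image_of_injOn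
  intro b1 h1 b2 h2 h
  have a1 := hB b1 (mem_coe.1 h1)
  have a2 := hB b2 (mem_coe.1 h2)
  have h' : b1 - q = b2 - q := h
  omega

/-- The integral bound of the join: at most `tb + Gc.m + 1` bins can receive pairs at the same
time. -/
theorem join_int (Gb Gc : Gadget) (H eb ec tb tc : ℕ)
    (hwb : ∀ i, i < Gb.N → Gb.w i ≤ H) (hcb : ∀ b, b < Gb.m → Gb.c b ≤ H)
    (hwc : ∀ i, i < Gc.N → Gc.w i ≤ H) (hcc : ∀ b, b < Gc.m → Gc.c b ≤ H)
    (hb : Gb.IntBound tb) (hc : Gc.IntBound tc) (htc : tc ≤ Gc.m)
    (hN : Gb.N + eb + tc ≤ 2 * tb + 2 + Gc.m) :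
    (join Gb Gc H eb ec).IntBound (tb + Gc.m + 1) := by
  intro S f g hP
  rw [join_N, join_m] at hP
  have key : S.card ≤ (tb + 1) + (Finset.Ico Gb.m (Gb.m + Gc.m)).card := by
    refine level_step_gen (join Gb Gc H eb ec).w (join Gb Gc H eb ec).c
      (range (Gb.N + eb)) (range Gb.m)
      (Finset.Ico (Gb.N + eb) (Gb.N + eb + Gc.N + ec)) (Finset.Ico Gb.m (Gb.m + Gc.m))
      (range (Gb.N + eb + Gc.N + ec + 1)) (range (Gb.m + Gc.m + 2))
      (Gb.N + eb + Gc.N + ec) (Gb.m + Gc.m) (Gb.m + Gc.m + 1) (tb + 1) (Gc.m - tc)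
      ?_ ?_ ?_ ?_ ?_ ?_ ?_ ?_ ?_ ?_ S f g hP
    · ext x
      simp only [mem_range, mem_union, mem_insert, mem_Ico]
      omega
    · ext x
      simp only [mem_range, mem_union, mem_insert, mem_Ico]
      omega
    · rw [card_range]
      omega
    · rw [mem_range]
      omega
    · omega
    · intro l hl i _ b hb
      rw [mem_Ico] at hl
      have hl' := join_w_heavy_ge Gb Gc H eb ec l hl.1 hl.2
      rw [mem_insert, mem_range] at hb
      rcases hb with rfl | hb
      · rw [join_c_sm]
        omega
      · rw [join_c_b Gb Gc H eb ec b hb]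
        have := hcb b hb
        omega
    · intro l hl i hi
      rw [mem_Ico] at hl
      have hl' := join_w_heavy_ge Gb Gc H eb ec l hl.1 hl.2
      rw [join_c_tp]
      rw [mem_union, mem_range, mem_Ico] at hi
      rcases hi with hi | hi
      · have := join_w_old_ge Gb Gc H eb ec i hi
        omega
      · have := join_w_heavy_ge Gb Gc H eb ec i hi.1 hi.2
        omega
    · intro i hi j hj _
      rw [mem_range] at hi hj
      have h1 := join_w_old_ge Gb Gc H eb ec i hi
      have h2 := join_w_old_ge Gb Gc H eb ec j hj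
      rw [join_c_sm]
      omega
    · intro S' f' g' hP'
      -- a pair of heavy items in a big bin consists of two items of `Gc`
      have hbin : ∀ b ∈ S', Gb.m ≤ b ∧ b < Gb.m + Gc.m := by
        intro b hb
        exact mem_Ico.1 (hP'.sub hb)
      have hitems : ∀ b ∈ S', (Gb.N + eb ≤ f' b ∧ f' b < Gb.N + eb + Gc.N) ∧
          (Gb.N + eb ≤ g' b ∧ g' b < Gb.N + eb + Gc.N) := by
        intro b hb
        have hbb := hbin b hb
        have hf := mem_Ico.1 (hP'.memf b hb)
        have hg := mem_Ico.1 (hP'.memg b hb)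
        have hfit := hP'.fit b hb
        rw [join_c_c' Gb Gc H eb ec b hbb.1 hbb.2] at hfit
        have hcap := hcc (b - Gb.m) (by omega)
        have hfw := join_w_heavy_ge Gb Gc H eb ec (f' b) hf.1 hf.2
        have hgw := join_w_heavy_ge Gb Gc H eb ec (g' b) hg.1 hg.2
        refine ⟨⟨hf.1, ?_⟩, ⟨hg.1, ?_⟩⟩
        · by_contra hcon
          have h := join_w_ec Gb Gc H eb ec (f' b) (by omega) hf.2
          omega
        · by_contra hcon
          have h := join_w_ec Gb Gc H eb ec (g' b) (by omega) hg.2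
          omega
      have hPc := placed_shift (join Gb Gc H eb ec).w (join Gb Gc H eb ec).c Gc.w Gc.c
        _ _ Gc.N Gc.m (Gb.N + eb) Gb.m S' f' g' hP' hbin
        (fun b hb => (hitems b hb).1) (fun b hb => (hitems b hb).2) (by
          intro b hb
          have hbb := hbin b hb
          have hi := hitems b hb
          have hfit := hP'.fit b hb
          rw [join_c_c' Gb Gc H eb ec b hbb.1 hbb.2,
            join_w_c' Gb Gc H eb ec (f' b) hi.1.1 hi.1.2,
            join_w_c' Gb Gc H eb ec (g' b) hi.2.1 hi.2.2] at hfit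
          omega)
      have hcard := hc _ _ _ hPc
      rw [card_image_shift S' Gb.m (fun b hb => (hbin b hb).1)] at hcard
      rw [Nat.card_Ico]
      omega
    · intro S' f' g' hP'
      -- a pair of old items in an old bin consists of two items of `Gb`
      have hitems : ∀ b ∈ S', f' b < Gb.N ∧ g' b < Gb.N := by
        intro b hb
        have hbb := mem_range.1 (hP'.sub hb)
        have hf := mem_range.1 (hP'.memf b hb)
        have hg := mem_range.1 (hP'.memg b hb)
        have hfit := hP'.fit b hb
        rw [join_c_b Gb Gc H eb ec b hbb] at hfit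
        have hcap := hcb b hbb
        have hfw := join_w_old_ge Gb Gc H eb ec (f' b) hf
        have hgw := join_w_old_ge Gb Gc H eb ec (g' b) hg
        refine ⟨?_, ?_⟩
        · by_contra hcon
          have h := join_w_eb Gb Gc H eb ec (f' b) (by omega) hf
          omega
        · by_contra hcon
          have h := join_w_eb Gb Gc H eb ec (g' b) (by omega) hg
          omega
      have hP0 : Placed Gb.w Gb.c (range Gb.N) (range Gb.m) S' f' g' := by
        refine ⟨hP'.sub, ?_, ?_, hP'.ne, ?_, hP'.disj⟩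
        · intro b hb
          exact mem_range.2 (hitems b hb).1
        · intro b hb
          exact mem_range.2 (hitems b hb).2
        · intro b hb
          have hbb := mem_range.1 (hP'.sub hb)
          have hi := hitems b hb
          have hfit := hP'.fit b hb
          rw [join_c_b Gb Gc H eb ec b hbb, join_w_b Gb Gc H eb ec _ hi.1,
            join_w_b Gb Gc H eb ec _ hi.2] at hfit
          omega
      have := hb S' f' g' hP0
      omega
  rw [Nat.card_Ico] at key
  omega

/-- All weights of the join are at most `13 (H + 1)`. -/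
theorem join_w_le (Gb Gc : Gadget) (H eb ec : ℕ)
    (hwb : ∀ i, i < Gb.N → Gb.w i ≤ H) (hwc : ∀ i, i < Gc.N → Gc.w i ≤ H) (i : ℕ) :
    (join Gb Gc H eb ec).w i ≤ 13 * (H + 1) := by
  by_cases h1 : i < Gb.N
  · rw [join_w_b Gb Gc H eb ec i h1]
    have := hwb i h1
    omega
  · by_cases h2 : i < Gb.N + eb
    · rw [join_w_eb Gb Gc H eb ec i (by omega) h2]
      omega
    · by_cases h3 : i < Gb.N + eb + Gc.N
      · rw [join_w_c' Gb Gc H eb ec i (by omega) h3]
        have := hwc (i - (Gb.N + eb)) (by omega)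
        omega
      · by_cases h4 : i < Gb.N + eb + Gc.N + ec
        · rw [join_w_ec Gb Gc H eb ec i (by omega) h4]
          omega
        · have : (join Gb Gc H eb ec).w i = 0 := by
            simp [join, h1, h2, h3, h4]
          omega

/-- All capacities of the join are at most `13 (H + 1)`. -/
theorem join_c_le (Gb Gc : Gadget) (H eb ec : ℕ)
    (hcb : ∀ b, b < Gb.m → Gb.c b ≤ H) (hcc : ∀ b, b < Gc.m → Gc.c b ≤ H) (b : ℕ) :
    (join Gb Gc H eb ec).c b ≤ 13 * (H + 1) := by
  by_cases h1 : b < Gb.m
  · rw [join_c_b Gb Gc H eb ec b h1]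
    have := hcb b h1
    omega
  · by_cases h2 : b < Gb.m + Gc.m
    · rw [join_c_c' Gb Gc H eb ec b (by omega) h2]
      have := hcc (b - Gb.m) (by omega)
      omega
    · by_cases h3 : b = Gb.m + Gc.m
      · rw [h3, join_c_sm]
        omega
      · have : (join Gb Gc H eb ec).c b = 6 * (H + 1) + (H + 1) := by
          simp [join, h1, h2, h3]
        omega

end Vale.Agent.Lib.Helper7.P302Join
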