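import Mathlib

/-!
Perfect packings of a finite set of indices into triples of bounded total weight,
and an exchange lemma for sorted weights.
-/

namespace Vale.Agent.Lib.Helper7.P302

open Finset

/-- `Pk wt C S`: the set `S` can be split into pairwise disjoint triples, each of total
weight at most `C`. -/
inductive Pk (wt : ℕ → ℕ) (C : ℕ) : Finset ℕ → Prop
  | nil : Pk wt C ∅
  | cons (S T : Finset ℕ) : T.card = 3 → Disjoint T S → (∑ i ∈ T, wt i ≤ C) →
      Pk wt C S → Pk wt C (T ∪ S)

/-- The triple through a given element can be split off. -/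
theorem Pk.extract {wt : ℕ → ℕ} {C : ℕ} {S : Finset ℕ} (h : Pk wt C S) :
    ∀ x ∈ S, ∃ T : Finset ℕ, x ∈ T ∧ T ⊆ S ∧ T.card = 3 ∧ (∑ i ∈ T, wt i ≤ C) ∧
      Pk wt C (S \ T) := by
  induction h with
  | nil => intro x hx; simp at hx
  | cons S T hT hd hw hS ih =>
    intro x hx
    by_cases hxT : x ∈ T
    · refine ⟨T, hxT, subset_union_left, hT, hw, ?_⟩
      have : (T ∪ S) \ T = S := by
        rw [union_sdiff_left]
        exact sdiff_eq_self_of_disjoint hd.symm
      rw [this]
      exact hS
    · have hxS : x ∈ S := by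
        rcases mem_union.mp hx with h1 | h1
        · exact absurd h1 hxT
        · exact h1
      obtain ⟨T', hxT', hT'S, hT'c, hT'w, hP⟩ := ih x hxS
      refine ⟨T', hxT', hT'S.trans subset_union_right, hT'c, hT'w, ?_⟩
      have hdT : Disjoint T T' := disjoint_of_subset_right hT'S hd
      have : (T ∪ S) \ T' = T ∪ (S \ T') := by
        rw [union_sdiff_distrib]
        congr 1
        exact sdiff_eq_self_of_disjoint hdT
      rw [this]
      exact Pk.cons (S \ T') T hT (disjoint_of_subset_right sdiff_subset hd) hw hP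

/-- Exchange lemma.  If the weights are monotone on `S` then, for any pivot `x`, some
triple `{x, p, q}` with `p < q` is used, and `q` may be replaced by any heavier
admissible partner `z`. -/
theorem Pk.exchange {wt : ℕ → ℕ} {C : ℕ} {S : Finset ℕ} (h : Pk wt C S)
    (hmono : ∀ i ∈ S, ∀ j ∈ S, i ≤ j → wt i ≤ wt j) (x : ℕ) (hx : x ∈ S) :
    ∃ p q, p ∈ S ∧ q ∈ S ∧ p < q ∧ p ≠ x ∧ q ≠ x ∧ wt x + wt p + wt q ≤ C ∧
      ∀ z ∈ S, z ≠ x → z ≠ p → q ≤ z → wt x + wt p + wt z ≤ C →
        Pk wt C (((S.erase x).erase p).erase z) := by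
  obtain ⟨T, hxT, hTS, hTc, hTw, hP⟩ := h.extract x hx
  have hc2 : (T.erase x).card = 2 := by
    rw [card_erase_of_mem hxT, hTc]
  obtain ⟨a, b, hab, hTab⟩ := card_eq_two.mp hc2
  have haT : a ∈ T := by
    have : a ∈ T.erase x := by rw [hTab]; simp
    exact mem_of_mem_erase this
  have hbT : b ∈ T := by
    have : b ∈ T.erase x := by rw [hTab]; simp
    exact mem_of_mem_erase this
  have hax : a ≠ x := by
    have : a ∈ T.erase x := by rw [hTab]; simp
    exact ne_of_mem_erase this
  have hbx : b ≠ x := by
    have : b ∈ T.erase x := by rw [hTab]; simp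
    exact ne_of_mem_erase this
  have hsum : ∑ i ∈ T, wt i = wt x + wt a + wt b := by
    rw [← add_sum_erase T wt hxT, hTab, sum_pair hab]
    ring
  have hTeq : T = {x, a, b} := by
    rw [← insert_erase hxT, hTab]
  -- the general statement for an ordered pair
  have key : ∀ p q, p ∈ T → q ∈ T → p < q → p ≠ x → q ≠ x → T = {x, p, q} →
      wt x + wt p + wt q ≤ C →
      ∀ z ∈ S, z ≠ x → z ≠ p → q ≤ z → wt x + wt p + wt z ≤ C →
        Pk wt C (((S.erase x).erase p).erase z) := by
    intro p q hpT hqT hpq hpx hqx hT3 hw z hzS hzx hzp hqz hwz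
    by_cases hzq : z = q
    · subst hzq
      have : ((S.erase x).erase p).erase z = S \ T := by
        rw [hT3]
        ext i
        simp only [mem_erase, mem_sdiff, mem_insert, mem_singleton]
        tauto
      rw [this]
      exact hP
    · have hzT : z ∉ T := by
        rw [hT3]
        simp only [mem_insert, mem_singleton]
        tauto
      have hzS' : z ∈ S \ T := mem_sdiff.mpr ⟨hzS, hzT⟩
      obtain ⟨T2, hzT2, hT2S, hT2c, hT2w, hP2⟩ := hP.extract z hzS'
      have hqT2 : q ∉ T2 := by
        intro hq
        have := mem_sdiff.mp (hT2S hq)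
        exact this.2 hqT
      have hqE : q ∉ T2.erase z := fun hq => hqT2 (mem_of_mem_erase hq)
      have hc3 : (insert q (T2.erase z)).card = 3 := by
        rw [card_insert_of_notMem hqE, card_erase_of_mem hzT2, hT2c]
      have hwq : wt q ≤ wt z := hmono q (hTS hqT) z hzS hqz
      have hw3 : ∑ i ∈ insert q (T2.erase z), wt i ≤ C := by
        rw [sum_insert hqE]
        have h1 : wt z + ∑ i ∈ T2.erase z, wt i = ∑ i ∈ T2, wt i := add_sum_erase T2 wt hzT2
        omega
      have hdis : Disjoint (insert q (T2.erase z)) ((S \ T) \ T2) := by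
        rw [disjoint_left]
        intro i hi hi2
        rcases mem_insert.mp hi with h1 | h1
        · subst h1
          have := mem_sdiff.mp (mem_sdiff.mp hi2).1
          exact this.2 hqT
        · exact (mem_sdiff.mp hi2).2 (mem_of_mem_erase h1)
      have hres := Pk.cons _ _ hc3 hdis hw3 hP2
      have : insert q (T2.erase z) ∪ ((S \ T) \ T2) = ((S.erase x).erase p).erase z := by
        rw [hT3]
        ext i
        simp only [mem_union, mem_insert, mem_erase, mem_sdiff, mem_singleton]
        have hqS : q ∈ S := hTS hqT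
        have hT2sub : i ∈ T2 → i ∈ S ∧ i ≠ x ∧ i ≠ p ∧ i ≠ q := by
          intro hi
          have h1 := mem_sdiff.mp (hT2S hi)
          refine ⟨h1.1, ?_, ?_, ?_⟩
          · rintro rfl; exact h1.2 hxT
          · rintro rfl; exact h1.2 hpT
          · rintro rfl; exact h1.2 hqT
        by_cases hiT2 : i ∈ T2
        · have := hT2sub hiT2
          tauto
        · have hiz : i ≠ z := by rintro rfl; exact hiT2 hzT2
          by_cases hiq : i = q
          · subst hiq
            have h1 : i ≠ p := by omega
            have h2 : i ≠ z := fun h => hzq h.symm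
            tauto
          · tauto
      rw [← this]
      exact hres
  rcases Nat.lt_or_gt_of_ne hab with hlt | hgt
  · exact ⟨a, b, hTS haT, hTS hbT, hlt, hax, hbx, by omega,
      key a b haT hbT hlt hax hbx hTeq (by omega)⟩
  · have hTeq' : T = {x, b, a} := by
      rw [hTeq]
      ext i
      simp only [mem_insert, mem_singleton]
      tauto
    exact ⟨b, a, hTS hbT, hTS haT, hgt, hbx, hax, by omega,
      key b a hbT haT hgt hbx hax hTeq' (by omega)⟩

end Vale.Agent.Lib.Helper7.P302
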