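import Vale.Agent.Lib.Helper7.P302.Check

/-!
Kernel-evaluable checks of the side conditions of the certificate checker (sorted
weights, the table of admissible third indices, the bounds for the second index), and
the passage from a family of disjoint triples to `Pk`.
-/

namespace Vale.Agent.Lib.Helper7.P302

open Finset

/-- The weights are sorted on the first `N` indices. -/
noncomputable def monoOK (wt : ℕ → ℕ) (N : ℕ) : Bool :=
  allBelow (fun i => Nat.ble (wt i) (wt (Nat.add i 1))) (Nat.sub N 1)

theorem mono_of_check (wt : ℕ → ℕ) (N : ℕ) (h : monoOK wt N = true) :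
    ∀ i j, i ≤ j → j < N → wt i ≤ wt j := by
  have h1 : ∀ i < N - 1, wt i ≤ wt (i + 1) := by
    intro i hi
    have := allBelow_spec _ _ h i hi
    exact Nat.le_of_ble_eq_true this
  intro i j hij
  induction j, hij using Nat.le_induction with
  | base => intro _; exact le_rfl
  | succ j hij ih =>
    intro hj
    exact le_trans (ih (by omega)) (h1 j (by omega))

/-- The table `tab` counts, for every pair, the admissible third indices. -/
noncomputable def tabOK (wt : ℕ → ℕ) (C N : ℕ) (tab : ℕ → ℕ → ℕ) : Bool :=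
  allBelow (fun x => allBelow (fun p =>
    Nat.ble (tab x p) N &&
    ((Nat.beq (tab x p) 0 ||
        Nat.ble (Nat.add (Nat.add (wt x) (wt p)) (wt (Nat.sub (tab x p) 1))) C) &&
     (Nat.beq (tab x p) N ||
        Nat.blt C (Nat.add (Nat.add (wt x) (wt p)) (wt (tab x p)))))) N) N

theorem tab_of_check (wt : ℕ → ℕ) (C N : ℕ) (tab : ℕ → ℕ → ℕ)
    (hmono : ∀ i j, i ≤ j → j < N → wt i ≤ wt j) (h : tabOK wt C N tab = true) :
    ∀ x p i, x < N → p < N → i < N → (i < tab x p ↔ wt x + wt p + wt i ≤ C) := by
  intro x p i hx hp hi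
  have h1 := allBelow_spec _ _ (allBelow_spec _ _ h x hx) p hp
  simp only [Bool.and_eq_true, Bool.or_eq_true] at h1
  obtain ⟨hle, hlo, hhi⟩ := h1
  have hle' : tab x p ≤ N := Nat.le_of_ble_eq_true hle
  constructor
  · intro hlt
    rcases hlo with h0 | h0
    · have := Nat.eq_of_beq_eq_true h0
      omega
    · have h2 : wt x + wt p + wt (tab x p - 1) ≤ C := Nat.le_of_ble_eq_true h0
      have h3 : wt i ≤ wt (tab x p - 1) := hmono i (tab x p - 1) (by omega) (by omega)
      omega
  · intro hw
    by_contra hge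
    rcases hhi with h0 | h0
    · have := Nat.eq_of_beq_eq_true h0
      omega
    · have h2 : C < wt x + wt p + wt (tab x p) := by
        have h2' := h0
        rw [Nat.blt_eq] at h2'
        exact h2'
      have h3 : wt (tab x p) ≤ wt i := hmono (tab x p) i (by omega) hi
      omega

/-- The bound `pb x` for the second index of a triple through `x`. -/
noncomputable def pbOK (wt : ℕ → ℕ) (C N : ℕ) (pb : ℕ → ℕ) : Bool :=
  allBelow (fun x => Nat.ble N (Nat.add (pb x) 1) ||
    Nat.blt C (Nat.add (Nat.add (wt x) (wt (pb x))) (wt (Nat.add (pb x) 1)))) N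

theorem pb_of_check (wt : ℕ → ℕ) (C N : ℕ) (pb : ℕ → ℕ)
    (hmono : ∀ i j, i ≤ j → j < N → wt i ≤ wt j) (h : pbOK wt C N pb = true) :
    ∀ x p q, x < N → p < q → q < N → wt x + wt p + wt q ≤ C → p < pb x := by
  intro x p q hx hpq hq hw
  by_contra hge
  have h1 := allBelow_spec _ _ h x hx
  simp only [Bool.or_eq_true] at h1
  rcases h1 with h0 | h0
  · have h2 : N ≤ pb x + 1 := Nat.le_of_ble_eq_true h0
    omega
  · have h2 : C < wt x + wt (pb x) + wt (pb x + 1) := by
      have h2' := h0
      rw [Nat.blt_eq] at h2'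
      exact h2'
    have h3 : wt (pb x) ≤ wt p := hmono (pb x) p (by omega) (by omega)
    have h4 : wt (pb x + 1) ≤ wt q := hmono (pb x + 1) q (by omega) hq
    omega

/-- Two weight functions agree below `N`. -/
noncomputable def eqOK (wt wt' : ℕ → ℕ) (N : ℕ) : Bool :=
  allBelow (fun i => Nat.beq (wt i) (wt' i)) N

theorem eq_of_check (wt wt' : ℕ → ℕ) (N : ℕ) (h : eqOK wt wt' N = true) :
    ∀ i < N, wt i = wt' i := by
  intro i hi
  exact Nat.eq_of_beq_eq_true (allBelow_spec _ _ h i hi)

/-- `Pk` only depends on the weights of the indices involved. -/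
theorem Pk.congr {wt wt' : ℕ → ℕ} {C : ℕ} {S : Finset ℕ} (h : Pk wt C S) :
    (∀ i ∈ S, wt i = wt' i) → Pk wt' C S := by
  induction h with
  | nil => intro _; exact Pk.nil
  | cons S T hT hd hw _ ih =>
    intro heq
    refine Pk.cons S T hT hd ?_ (ih (fun i hi => heq i (mem_union_right _ hi)))
    have : ∑ i ∈ T, wt' i = ∑ i ∈ T, wt i :=
      sum_congr rfl (fun i hi => (heq i (mem_union_left _ hi)).symm)
    rw [this]
    exact hw

/-- A family of pairwise disjoint triples of bounded weight gives `Pk` of its union. -/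
theorem pk_of_family (wt : ℕ → ℕ) (C : ℕ) (P : Finset (Finset ℕ)) :
    (∀ T ∈ P, T.card = 3 ∧ ∑ i ∈ T, wt i ≤ C) →
    (∀ T ∈ P, ∀ T' ∈ P, T ≠ T' → Disjoint T T') → Pk wt C (P.biUnion id) := by
  induction P using Finset.induction_on with
  | empty => intro _ _; rw [biUnion_empty]; exact Pk.nil
  | insert T P' hT ih =>
    intro h3 hd
    rw [biUnion_insert]
    refine Pk.cons _ T (h3 T (mem_insert_self _ _)).1 ?_ (h3 T (mem_insert_self _ _)).2
      (ih (fun T' hT' => h3 T' (mem_insert_of_mem hT'))
        (fun T1 h1 T2 h2 hne => hd T1 (mem_insert_of_mem h1) T2 (mem_insert_of_mem h2) hne))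
    rw [disjoint_biUnion_right]
    intro T' hT'
    refine hd T (mem_insert_self _ _) T' (mem_insert_of_mem hT') ?_
    rintro rfl
    exact hT hT'

end Vale.Agent.Lib.Helper7.P302
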